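import Crest.Agent.N337.A.Defs

/-!
# Row 337, block (a): revealing the loops that meet `U` (helper38)
-/

set_option autoImplicit false
set_option linter.unusedSectionVars false

namespace Crest.Agent.N337.A

open Finset Equiv Crest.Agent.N337.Rep Crest.Agent.N337.LY0

variable {Λ : Type} [Fintype Λ] [DecidableEq Λ] {T : ℕ} [NeZero T] {ex ey : Fin T → Λ}
  {κ : Type} [Fintype κ] [DecidableEq κ]

variable (ex ey) in
/-- superposition of two revealed configurations. -/
def comb (a c : St T Λ κ) : St T Λ κ :=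
  (fun s => if Tch ex ey a.2 s then a.1 s else c.1 s, (glue a c).2)

namespace Cd

/-! ### orbits -/

/-- closed functions are constant on loops. -/
lemma _root_.Crest.Agent.N337.A.Cl.eq_of_o {α : Type} {ξ : Fin T → Bool} {n : Fin T × Λ → α} (h : Cl ex ey ξ n)
    {u v : Fin T × Λ} (huv : o (Sg ex ey ξ) u = o (Sg ex ey ξ) v) : n u = n v := by
  obtain ⟨k, -, rfl⟩ := (o_eq.1 huv).exists_pow_eq'
  clear huv
  induction k with
  | zero => rfl
  | succ k ih => rw [pow_succ', Perm.mul_apply, h, ih]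

/-- coins that agree at the steps touching `m` move the points of `m` in the same way. -/
lemma Sg_eq_of_tch {ξ ξ' : Fin T → Bool} {m : Fin T × Λ → Option κ}
    (hc : ∀ s, Tch ex ey m s → ξ' s = ξ s) {v : Fin T × Λ} (hv : m v ≠ none) :
    Sg ex ey ξ' v = Sg ex ey ξ v := by
  obtain ⟨s, x⟩ := v
  rw [Sg_apply, Sg_apply]
  by_cases ht : Tch ex ey m s
  · rw [hc s ht]
  · have h1 : x ≠ ex s := fun e => ht (Or.inl (e ▸ hv))
    have h2 : x ≠ ey s := fun e => ht (Or.inr (e ▸ hv))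
    have h3 : ∀ b, sg (ex s) (ey s) b x = x := fun b => by
      cases b <;> simp [sg, swap_apply_of_ne_of_ne h1 h2]
    rw [h3, h3]

lemma _root_.Crest.Agent.N337.A.Cl.of_tch {ξ ξ' : Fin T → Bool} {m : Fin T × Λ → Option κ} (h : Cl ex ey ξ m)
    (hc : ∀ s, Tch ex ey m s → ξ' s = ξ s) : Cl ex ey ξ' m := by
  rintro ⟨s, x⟩
  by_cases ht : Tch ex ey m s
  · rw [Sg_apply, hc s ht, ← Sg_apply, h]
  · have e : Sg ex ey ξ' (s, x) =
        Sg ex ey ξ (s, sg (ex s) (ey s) (ξ s) (sg (ex s) (ey s) (ξ' s) x)) := by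
      rw [Sg_apply, Sg_apply, sg_sg]
    have h1 : m (s, ex s) = none := by_contra fun e => ht (Or.inl e)
    have h2 : m (s, ey s) = none := by_contra fun e => ht (Or.inr e)
    have h3 : ∀ b x, m (s, sg (ex s) (ey s) b x) = m (s, x) := fun b x => by
      cases b
      · simp [sg]
      · simp only [sg, if_true]
        by_cases a1 : x = ex s
        · rw [a1, swap_apply_left, h1, h2]
        · by_cases a2 : x = ey s
          · rw [a2, swap_apply_right, h1, h2]
          · rw [swap_apply_of_ne_of_ne a1 a2]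
    rw [e, h, h3, h3]

lemma o_imp {ξ ξ' : Fin T → Bool} {m : Fin T × Λ → Option κ} (h : Cl ex ey ξ m)
    (hc : ∀ s, Tch ex ey m s → ξ' s = ξ s) {u v : Fin T × Λ} (hv : m v ≠ none)
    (huv : o (Sg ex ey ξ) u = o (Sg ex ey ξ) v) : o (Sg ex ey ξ') u = o (Sg ex ey ξ') v := by
  obtain ⟨k, -, rfl⟩ := (o_eq.1 huv.symm).exists_pow_eq'
  clear huv
  induction k with
  | zero => rfl
  | succ k ih =>
    rw [pow_succ', Perm.mul_apply, ← Sg_eq_of_tch hc, o_apply, ih]
    rwa [h.eq_of_o (o_pow _ k v)]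

/-- the loop through a point of `m` depends only on the coins that touch `m`. -/
lemma o_iff_of_tch {ξ ξ' : Fin T → Bool} {m : Fin T × Λ → Option κ} (h : Cl ex ey ξ m)
    (hc : ∀ s, Tch ex ey m s → ξ' s = ξ s) {v : Fin T × Λ} (hv : m v ≠ none) (u : Fin T × Λ) :
    o (Sg ex ey ξ') u = o (Sg ex ey ξ') v ↔ o (Sg ex ey ξ) u = o (Sg ex ey ξ) v :=
  ⟨o_imp (h.of_tch hc) (fun s hs => (hc s hs).symm) hv, o_imp h hc hv⟩

lemma ob_eq_of_tch {ξ ξ' : Fin T → Bool} {m : Fin T × Λ → Option κ} (h : Cl ex ey ξ m)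
    (hc : ∀ s, Tch ex ey m s → ξ' s = ξ s) {v : Fin T × Λ} (hv : m v ≠ none) :
    ob (Sg ex ey ξ') (o (Sg ex ey ξ') v) = ob (Sg ex ey ξ) (o (Sg ex ey ξ) v) :=
  filter_congr fun u _ => o_iff_of_tch h hc hv u

lemma wind_eq_of_tch {ξ ξ' : Fin T → Bool} {m : Fin T × Λ → Option κ} (h : Cl ex ey ξ m)
    (hc : ∀ s, Tch ex ey m s → ξ' s = ξ s) {v : Fin T × Λ} (hv : m v ≠ none) :
    wind ex ey ξ' v = wind ex ey ξ v :=
  congrArg card (filter_congr fun x _ => o_iff_of_tch h hc hv (0, x))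

/-! ### the weight of the down loops as a product over points -/

section rep

variable {S : Type} [Fintype S] [DecidableEq S]

/-- `v` is the chosen point of `A`. -/
def IsRep (A : Finset S) (v : S) : Prop := ∃ h : A.Nonempty, h.choose = v

open Classical in
/-- weight of one point; `A` is its loop. -/
noncomputable def dv (lab : Finset S → κ → ℝ) (b : ℝ) (A : Finset S) (v : S) (x : Option κ) : ℝ :=
  (if x = none then 1 else b) * if IsRep A v then x.elim 1 (lab A) else 1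

lemma dv_none (lab : Finset S → κ → ℝ) (b : ℝ) (A : Finset S) (v : S) : dv lab b A v none = 1 := by
  simp [dv]

open Classical in
lemma prod_rep (π : Perm S) (f : Finset S → S → ℝ)
    (hf : ∀ A u v, o π u = o π v → f A u = f A v) :
    ∏ g : Orb π, f (ob π g) (bp g) =
      ∏ v, if IsRep (ob π (o π v)) v then f (ob π (o π v)) v else 1 := by
  rw [← prod_fiberwise univ (o π)]
  refine prod_congr rfl fun g _ => ?_
  have hne : (ob π g).Nonempty := ⟨bp g, mem_filter.2 ⟨mem_univ _, o_bp g⟩⟩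
  have hg : o π hne.choose = g := (mem_filter.1 hne.choose_spec).2
  rw [prod_eq_single hne.choose]
  · rw [hg, if_pos ⟨hne, rfl⟩]
    exact hf _ _ _ (by rw [o_bp, hg])
  · intro v hv hne'
    rw [(mem_filter.1 hv).2, if_neg]
    rintro ⟨_, e⟩
    exact hne' e.symm
  · exact fun h => absurd hne.choose_spec h

lemma dw_eq (b : Fin T × Λ → ℝ) (lab : Finset (Fin T × Λ) → κ → ℝ) {ω : St T Λ κ}
    (h : Cl ex ey ω.1 ω.2) : dw ex ey b lab ω =
      ∏ v, dv lab (b v) (ob (Sg ex ey ω.1) (o (Sg ex ey ω.1) v)) v (ω.2 v) := by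
  rw [dw, prod_rep (Sg ex ey ω.1) (fun A v => (ω.2 v).elim 1 (lab A))
    fun A u v e => by rw [h.eq_of_o e], ← prod_mul_distrib]
  rfl

end rep

/-! ### revealed configurations -/

variable (ex ey) in
/-- `η` consists of down loops that meet `U` and of the coins touching them. -/
structure Rev (U : Finset (Fin T × Λ)) (η : St T Λ κ) : Prop where
  cl : Cl ex ey η.1 η.2
  hit : ∀ v, η.2 v ≠ none → ∃ u ∈ U, o (Sg ex ey η.1) u = o (Sg ex ey η.1) v
  off : ∀ s, ¬ Tch ex ey η.2 s → η.1 s = false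

variable (ex ey) in
/-- `ω` is a possible state of the child model. -/
structure Fit (U : Finset (Fin T × Λ)) (η ω : St T Λ κ) : Prop where
  cl : Cl ex ey ω.1 ω.2
  coin : ∀ s, Tch ex ey η.2 s → ω.1 s = η.1 s
  up : ∀ v, v ∈ U ∨ η.2 v ≠ none → ω.2 v = none

/-- `ω` with the points of `η` removed. -/
def cut (η ω : St T Λ κ) : St T Λ κ := (ω.1, fun v => if η.2 v = none then ω.2 v else none)

variable {U : Finset (Fin T × Λ)} {η ω : St T Λ κ}

lemma res_snd (U : Finset (Fin T × Λ)) (ω : St T Λ κ) : (res ex ey U ω).2 = rn ex ey U ω := rfl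

lemma res_fst_of_tch {s : Fin T} (h : Tch ex ey (res ex ey U ω).2 s) :
    (res ex ey U ω).1 s = ω.1 s := if_pos h

lemma rn_of_ne {v : Fin T × Λ} (h : rn ex ey U ω v ≠ none) :
    (∃ u ∈ U, o (Sg ex ey ω.1) u = o (Sg ex ey ω.1) v) ∧ rn ex ey U ω v = ω.2 v := by
  unfold rn at h ⊢
  split_ifs at h ⊢ with hc
  · exact ⟨hc, rfl⟩
  · exact absurd rfl h

lemma rn_of_mem {v : Fin T × Λ} (h : v ∈ U) : rn ex ey U ω v = ω.2 v := if_pos ⟨v, h, rfl⟩

lemma rn_of_none {v : Fin T × Λ} (h : ω.2 v = none) : rn ex ey U ω v = none := by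
  unfold rn; rw [h, ite_self]

lemma rn_univ (ω : St T Λ κ) : rn ex ey univ ω = ω.2 := funext fun v => rn_of_mem (mem_univ v)

lemma tch_mono {m m' : Fin T × Λ → Option κ} {s : Fin T} (h : Tch ex ey m s)
    (hm : ∀ v, m v ≠ none → m' v ≠ none) : Tch ex ey m' s := h.imp (hm _) (hm _)

lemma _root_.Crest.Agent.N337.A.Cl.rn_cl (h : Cl ex ey ω.1 ω.2) (U : Finset (Fin T × Λ)) : Cl ex ey ω.1 (rn ex ey U ω) := by
  intro v
  simp only [rn, o_apply, h v]

lemma _root_.Crest.Agent.N337.A.Cl.rev (h : Cl ex ey ω.1 ω.2) (U : Finset (Fin T × Λ)) : Rev ex ey U (res ex ey U ω) where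
  cl := (h.rn_cl U).of_tch fun _ hs => res_fst_of_tch hs
  hit v hv := by
    obtain ⟨u, hu, e⟩ := (rn_of_ne hv).1
    exact ⟨u, hu, (o_iff_of_tch (h.rn_cl U) (fun _ hs => res_fst_of_tch hs) hv u).2 e⟩
  off _ hs := if_neg hs


lemma _root_.Crest.Agent.N337.A.Cl.wind_res (h : Cl ex ey ω.1 ω.2) {v : Fin T × Λ} (hv : (res ex ey U ω).2 v ≠ none) :
    wind ex ey (res ex ey U ω).1 v = wind ex ey ω.1 v :=
  wind_eq_of_tch (h.rn_cl U) (fun _ hs => res_fst_of_tch hs) hv



lemma glue_fst (η ω : St T Λ κ) : (glue η ω).1 = ω.1 := rfl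

lemma glue_of_none {v : Fin T × Λ} (h : η.2 v = none) : (glue η ω).2 v = ω.2 v := if_pos h

lemma glue_of_ne {v : Fin T × Λ} (h : η.2 v ≠ none) : (glue η ω).2 v = η.2 v := if_neg h

lemma glue_ne_none {v : Fin T × Λ} : (glue η ω).2 v ≠ none ↔ η.2 v ≠ none ∨ ω.2 v ≠ none := by
  by_cases h : η.2 v = none
  · rw [glue_of_none h]; simp [h]
  · rw [glue_of_ne h]; simp [h]

lemma tch_glue {s : Fin T} : Tch ex ey (glue η ω).2 s ↔ Tch ex ey η.2 s ∨ Tch ex ey ω.2 s := by
  simp only [Tch, glue_ne_none]; tauto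

lemma Fit.cl_glue (hf : Fit ex ey U η ω) (hη : Cl ex ey η.1 η.2) : Cl ex ey ω.1 (glue η ω).2 := by
  intro v
  simp only [glue, hf.cl v, hη.of_tch hf.coin v]

lemma Fit.o_iff (hf : Fit ex ey U η ω) (hη : Cl ex ey η.1 η.2) {v : Fin T × Λ} (hv : η.2 v ≠ none)
    (u : Fin T × Λ) :
    o (Sg ex ey ω.1) u = o (Sg ex ey ω.1) v ↔ o (Sg ex ey η.1) u = o (Sg ex ey η.1) v :=
  o_iff_of_tch hη hf.coin hv u

lemma Fit.wind_eq (hf : Fit ex ey U η ω) (hη : Cl ex ey η.1 η.2) {v : Fin T × Λ}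
    (hv : η.2 v ≠ none) : wind ex ey ω.1 v = wind ex ey η.1 v := wind_eq_of_tch hη hf.coin hv

lemma Fit.res_glue (hf : Fit ex ey U η ω) (hη : Rev ex ey U η) : res ex ey U (glue η ω) = η := by
  have e : rn ex ey U (glue η ω) = η.2 := by
    funext v
    by_cases hv : η.2 v = none
    · rw [hv]
      by_contra hne
      obtain ⟨⟨u, hu, e⟩, e'⟩ := rn_of_ne hne
      rw [e', glue_of_none hv, ← hf.cl.eq_of_o e] at hne
      exact hne (hf.up u (Or.inl hu))
    · obtain ⟨u, hu, e⟩ := hη.hit v hv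
      rw [rn, if_pos ⟨u, hu, (hf.o_iff hη.cl hv u).2 e⟩, glue_of_ne hv]
  refine Prod.ext (funext fun s => ?_) e
  show (if Tch ex ey (rn ex ey U (glue η ω)) s then _ else _) = _
  rw [e]
  split_ifs with ht
  · exact hf.coin s ht
  · exact (hη.off s ht).symm

/-- **(iv)** the loops of the glued state that meet `U1`. -/
lemma Fit.res_glue_comb (hf : Fit ex ey U η ω) (hη : Cl ex ey η.1 η.2) (U1 : Finset (Fin T × Λ)) :
    res ex ey U1 (glue η ω) = comb ex ey (res ex ey U1 η) (res ex ey U1 ω) := by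
  have e : rn ex ey U1 (glue η ω) = (glue (res ex ey U1 η) (res ex ey U1 ω)).2 := by
    funext v
    by_cases hv : η.2 v = none
    · rw [glue_of_none (η := res ex ey U1 η) (rn_of_none hv), rn, glue_of_none hv]
      rfl
    · have e1 : rn ex ey U1 (glue η ω) v = rn ex ey U1 η v := by
        simp only [rn, glue_fst, hf.o_iff hη hv, glue_of_ne hv]
      rw [e1]
      by_cases hr : rn ex ey U1 η v = none
      · rw [glue_of_none (η := res ex ey U1 η) hr, hr]
        exact (rn_of_none (hf.up v (Or.inr hv))).symm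
      · exact (glue_of_ne (η := res ex ey U1 η) hr).symm
  refine Prod.ext (funext fun s => ?_) e
  show (if Tch ex ey (rn ex ey U1 (glue η ω)) s then ω.1 s else false) =
    if Tch ex ey (res ex ey U1 η).2 s then (res ex ey U1 η).1 s else (res ex ey U1 ω).1 s
  rw [e]
  by_cases h1 : Tch ex ey (res ex ey U1 η).2 s
  · rw [if_pos (tch_glue.2 (Or.inl h1)), if_pos h1, res_fst_of_tch h1]
    exact hf.coin s (tch_mono h1 fun v hv => (rn_of_ne hv).2 ▸ hv)
  · rw [if_neg h1]
    by_cases h2 : Tch ex ey (res ex ey U1 ω).2 s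
    · rw [if_pos (tch_glue.2 (Or.inr h2)), res_fst_of_tch h2]
    · rw [if_neg fun h => (tch_glue.1 h).elim h1 h2]
      exact (if_neg h2).symm

lemma Fit.cut_glue (hf : Fit ex ey U η ω) : cut η (glue η ω) = ω := by
  refine Prod.ext rfl (funext fun v => ?_)
  by_cases hv : η.2 v = none
  · exact (if_pos hv).trans (glue_of_none hv)
  · exact (if_neg hv).trans (hf.up v (Or.inr hv)).symm

lemma glue_cut (U : Finset (Fin T × Λ)) (ω : St T Λ κ) :
    glue (res ex ey U ω) (cut (res ex ey U ω) ω) = ω := by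
  refine Prod.ext rfl (funext fun v => ?_)
  by_cases hv : (res ex ey U ω).2 v = none
  · exact (glue_of_none hv).trans (if_pos hv)
  · exact (glue_of_ne hv).trans (rn_of_ne hv).2

lemma _root_.Crest.Agent.N337.A.Cl.fit_cut (h : Cl ex ey ω.1 ω.2) (U : Finset (Fin T × Λ)) :
    Fit ex ey U (res ex ey U ω) (cut (res ex ey U ω) ω) where
  cl v := by
    show (if rn ex ey U ω (Sg ex ey ω.1 v) = none then ω.2 (Sg ex ey ω.1 v) else none) =
      if rn ex ey U ω v = none then ω.2 v else none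
    rw [h v, h.rn_cl U v]
  coin _ hs := (res_fst_of_tch hs).symm
  up v hv := by
    by_cases h0 : (res ex ey U ω).2 v = none
    · exact (if_pos h0).trans ((rn_of_mem (hv.resolve_right (not_not.2 h0))).symm.trans h0)
    · exact if_neg h0

/-! ### weights -/

variable {M : Mdl T Λ} {lab : Finset (Fin T × Λ) → κ → ℝ}

lemma cl_of_wt (h : wt ex ey M lab ω ≠ 0) : Cl ex ey ω.1 ω.2 :=
  by_contra fun hc => h (if_neg hc)

lemma wt_of_cl (h : Cl ex ey ω.1 ω.2) (M : Mdl T Λ) (lab : Finset (Fin T × Λ) → κ → ℝ) :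
    wt ex ey M lab ω = Pw M.p ω.1 * dw ex ey M.b lab ω := if_pos h

lemma wb_ne_of_wt (h : wt ex ey M lab ω ≠ 0) (s : Fin T) : wb (M.p s) (ω.1 s) ≠ 0 := by
  rw [wt_of_cl (cl_of_wt h)] at h
  exact prod_ne_zero_iff.1 (left_ne_zero_of_mul h) s (mem_univ _)

lemma b_ne_of_wt (h : wt ex ey M lab ω ≠ 0) {v : Fin T × Λ} (hv : ω.2 v ≠ none) : M.b v ≠ 0 := by
  rw [wt_of_cl (cl_of_wt h)] at h
  have := prod_ne_zero_iff.1 (left_ne_zero_of_mul (right_ne_zero_of_mul h)) v (mem_univ _)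
  rwa [if_neg hv] at this

lemma fit_of_wt (h : wt ex ey (child ex ey M U η) lab ω ≠ 0) : Fit ex ey U η ω where
  cl := cl_of_wt h
  coin s hs := by
    have := wb_ne_of_wt h s
    simp only [child, if_pos hs] at this
    revert this
    cases ω.1 s <;> cases η.1 s <;> simp [wb]
  up v hv := by_contra fun hne => b_ne_of_wt h hne (if_pos hv)

lemma Fit.wt_glue (hf : Fit ex ey U η ω) (hη : Cl ex ey η.1 η.2) (M : Mdl T Λ)
    (lab : Finset (Fin T × Λ) → κ → ℝ) :
    wt ex ey M lab (glue η ω) = aw ex ey M lab η * wt ex ey (child ex ey M U η) lab ω := by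
  have hg : Cl ex ey (glue η ω).1 (glue η ω).2 := hf.cl_glue hη
  rw [wt_of_cl hg, wt_of_cl hf.cl, aw, dw_eq _ _ hg, dw_eq _ _ hη, dw_eq _ _ hf.cl, mul_mul_mul_comm,
    Pw, Pw, ← prod_mul_distrib, ← prod_mul_distrib]
  congr 1
  · refine prod_congr rfl fun s _ => ?_
    by_cases hs : Tch ex ey η.2 s
    · simp only [child, if_pos hs, glue_fst, hf.coin s hs]
      cases η.1 s <;> simp [wb]
    · simp only [child, if_neg hs, glue_fst, one_mul]
  · refine prod_congr rfl fun v _ => ?_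
    by_cases hv : η.2 v = none
    · rw [glue_of_none hv, hv, dv_none, one_mul, glue_fst]
      by_cases hw : ω.2 v = none
      · rw [hw, dv_none, dv_none]
      · have : (child ex ey M U η).b v = M.b v := if_neg fun h => hw (hf.up v h)
        rw [this]
    · rw [glue_of_ne hv, hf.up v (Or.inr hv), dv_none, mul_one, glue_fst,
        ob_eq_of_tch hη hf.coin hv]

lemma Rev.sum_res (hη : Rev ex ey U η) (M : Mdl T Λ) (lab : Finset (Fin T × Λ) → κ → ℝ)
    (F : St T Λ κ → ℝ) :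
    ∑ ω, wt ex ey M lab ω * (if res ex ey U ω = η then F ω else 0) =
      aw ex ey M lab η * ∑ ω, wt ex ey (child ex ey M U η) lab ω * F (glue η ω) := by
  classical
  rw [mul_sum, ← sum_subset (filter_subset (Fit ex ey U η) univ)
    (f := fun ω => aw ex ey M lab η * (wt ex ey (child ex ey M U η) lab ω * F (glue η ω)))
    fun ω _ hω => ?_]
  · symm
    refine sum_of_injOn (glue η) (fun a ha b hb e => ?_) (fun _ _ => mem_coe.2 (mem_univ _))
      (fun ω _ hω => ?_) fun ω hω => ?_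
    · rw [← (mem_filter.1 ha).2.cut_glue, e, (mem_filter.1 hb).2.cut_glue]
    · by_cases hw : wt ex ey M lab ω = 0
      · rw [hw, zero_mul]
      · rw [if_neg, mul_zero]
        rintro rfl
        exact hω ⟨_, mem_coe.2 (mem_filter.2 ⟨mem_univ _, (cl_of_wt hw).fit_cut U⟩), glue_cut U ω⟩
    · have hf := (mem_filter.1 hω).2
      rw [hf.wt_glue hη.cl, if_pos (hf.res_glue hη), mul_assoc]
  · have : wt ex ey (child ex ey M U η) lab ω = 0 :=
      by_contra fun h => hω (mem_filter.2 ⟨mem_univ _, fit_of_wt h⟩)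
    rw [this, zero_mul, mul_zero]

/-! ### consequences -/

lemma ok_child {y : ℝ} (h : M.Ok y) (U : Finset (Fin T × Λ)) (η : St T Λ κ) :
    (child ex ey M U η).Ok y := by
  refine ⟨fun s => ?_, fun v => ?_, fun x => ?_⟩
  · simp only [child]
    split_ifs
    exacts [⟨zero_le_one, le_rfl⟩, ⟨le_rfl, zero_le_one⟩, h.1 s]
  · simp only [child]
    split_ifs
    exacts [⟨le_rfl, zero_le_one⟩, h.2.1 v]
  · simp only [child]
    split_ifs
    exacts [(h.2.1 _).1.trans (h.2.2 x), h.2.2 x]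

lemma sum_wt (hB : BasStmt) {y : ℝ} (h : M.Ok y) (hl : Lab lab) :
    ∑ ω, wt ex ey M lab ω = Z ex ey M := by
  simpa only [mul_one, Z] using ((hB Λ T ex ey M y h).2.2.2.2 κ lab hl).2 fun _ => 1

lemma Z_pos (hB : BasStmt) {y : ℝ} (h : M.Ok y) : 0 < Z ex ey M :=
  one_pos.trans_le (hB Λ T ex ey M y h).1



end Cd

open Cd

variable {U : Finset (Fin T × Λ)} {η ω : St T Λ κ} {M : Mdl T Λ}
  {lab : Finset (Fin T × Λ) → κ → ℝ}

theorem cond : CondStmt := fun _ _ _ _ _ _ _ _ _ _ lab M U _ h =>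
  ⟨(h.rev U).sum_res M lab, (h.rev U).cl, fun _ hw =>
    ⟨(fit_of_wt hw).cl_glue (h.rev U).cl, (fit_of_wt hw).res_glue (h.rev U)⟩⟩

/-- **(i)** `Pk` is the conditional expectation given `res U`. -/
theorem ev_Pk (hB : BasStmt) {y : ℝ} (h : M.Ok y) (hl : Lab lab) (U : Finset (Fin T × Λ))
    (G F : St T Λ κ → ℝ) :
    Ev ex ey M lab (fun ω => G (res ex ey U ω) * Pk ex ey M lab U F ω) =
      Ev ex ey M lab fun ω => G (res ex ey U ω) * F ω := by
  have split : ∀ H : St T Λ κ → ℝ, ∑ ω, wt ex ey M lab ω * H ω =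
      ∑ η, ∑ ω, wt ex ey M lab ω * (if res ex ey U ω = η then H ω else 0) := fun H => by
    rw [sum_comm]
    simp only [← mul_sum, sum_ite_eq, mem_univ, if_true]
  unfold Ev
  congr 1
  rw [split, split fun ω => G (res ex ey U ω) * F ω]
  refine sum_congr rfl fun η _ => ?_
  by_cases hη : Rev ex ey U η
  · have e1 : ∀ ω, (if res ex ey U ω = η then G (res ex ey U ω) * Pk ex ey M lab U F ω else 0) =
        if res ex ey U ω = η then G η * Ev ex ey (child ex ey M U η) lab (fun ω' => F (glue η ω'))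
          else 0 := fun ω => ite_congr rfl (fun e => by rw [Pk, e]) fun _ => rfl
    have e2 : ∀ ω, (if res ex ey U ω = η then G (res ex ey U ω) * F ω else 0) =
        if res ex ey U ω = η then G η * F ω else 0 :=
      fun ω => ite_congr rfl (fun e => by rw [e]) fun _ => rfl
    simp only [e1, e2]
    rw [hη.sum_res M lab fun _ => G η * _, hη.sum_res M lab fun ω => G η * F ω, ← sum_mul,
      sum_wt hB (ok_child h U η) hl, Ev]
    simp only [mul_left_comm _ (G η), ← mul_sum]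
    rw [mul_div_cancel₀ _ (Z_pos hB (ok_child h U η)).ne']
  · have e : ∀ (H : St T Λ κ → ℝ) ω,
        wt ex ey M lab ω * (if res ex ey U ω = η then H ω else 0) = 0 := fun H ω => by
      by_cases hw : wt ex ey M lab ω = 0
      · rw [hw, zero_mul]
      · rw [if_neg, mul_zero]
        rintro rfl
        exact hη ((cl_of_wt hw).rev U)
    exact (sum_eq_zero fun ω _ => e (fun ω => G (res ex ey U ω) * Pk ex ey M lab U F ω) ω).trans
      (sum_eq_zero fun ω _ => e (fun ω => G (res ex ey U ω) * F ω) ω).symm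



lemma aw_ne_of_wt {ω0 : St T Λ κ} (h0 : wt ex ey M lab ω0 ≠ 0) (U : Finset (Fin T × Λ)) :
    aw ex ey M lab (res ex ey U ω0) ≠ 0 := by
  have hc := cl_of_wt h0
  rw [← glue_cut (ex := ex) (ey := ey) U ω0, (hc.fit_cut U).wt_glue (hc.rev U).cl] at h0
  exact left_ne_zero_of_mul h0

/-- **(iii)** resampling stays in the support. -/
theorem wt_glue_ne {ω0 : St T Λ κ} (h0 : wt ex ey M lab ω0 ≠ 0)
    (hw : wt ex ey (child ex ey M U (res ex ey U ω0)) lab ω ≠ 0) :
    wt ex ey M lab (glue (res ex ey U ω0) ω) ≠ 0 := by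
  rw [(fit_of_wt hw).wt_glue ((cl_of_wt h0).rev U).cl]
  exact mul_ne_zero (aw_ne_of_wt h0 U) hw

/-- **(iv)** in the form of the task. -/
theorem res_glue_comb {ω0 : St T Λ κ} (h0 : Cl ex ey ω0.1 ω0.2)
    (hw : wt ex ey (child ex ey M U (res ex ey U ω0)) lab ω ≠ 0) (U1 : Finset (Fin T × Λ)) :
    res ex ey U1 (glue (res ex ey U ω0) ω) =
      comb ex ey (res ex ey U1 (res ex ey U ω0)) (res ex ey U1 ω) :=
  (fit_of_wt hw).res_glue_comb (h0.rev U).cl U1

theorem wind_glue {ω0 : St T Λ κ} (h0 : Cl ex ey ω0.1 ω0.2)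
    (hw : wt ex ey (child ex ey M U (res ex ey U ω0)) lab ω ≠ 0) {v : Fin T × Λ}
    (hv : (res ex ey U ω0).2 v ≠ none) : wind ex ey ω.1 v = wind ex ey (res ex ey U ω0).1 v :=
  (fit_of_wt hw).wind_eq (h0.rev U).cl hv

end Crest.Agent.N337.A
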